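import Vale.Agent.P167.H638.SM.Flat
import Vale.Agent.P167.H450.MkC

/-!
# P167, general `q`, [SEAM-34] (s4): the side and the index of a boundary point of low position

`in_clear`: boundary points of low position are far from the mark.
`in_side`: and on the pushed-in side of the polygon.
`in_idx`: the index on the shape.
-/

set_option autoImplicit false

namespace Vale.Agent.P167.H638.SM

open Metric Set
open Vale.Agent.P153.R2.R1 (Conf dinv JCurve)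
open Vale.Agent.P167.E6 (IsPolygon Encloses dir face pt region D6 PF6 PV6 PV6_re PV6_im)
open Vale.Agent.P167.H825 (pdir)
open Vale.Agent.P167.Enl (PN PN_lin)
open Vale.Agent.P167.QT (Sh4)
open Vale.Agent.P167.H632G
open Vale.Agent.P167.H446.G (emb ea eb)
open Vale.Agent.P167.SG Vale.Agent.P167.H450 Vale.Agent.P167.H450.Out

section

variable {ι : Type*} {F : ℂ → ℂ} {σ ε ε' xc e ν r ℓ : ℝ} {κ : ι → Set ℂ}
    {a₀ b₁ m κ₀ τ x₁ s h₁ t₁ rB rF x₂ : ℝ} {Kb Xb K : Set ℂ} {q e₁ : ℂ}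

/-- The constants. -/
structure CM (a₀ b₁ m κ₀ τ x₁ ε e ν : ℝ) : Prop where
  ha : 0 < a₀
  hab : a₀ ≤ b₁
  ha1 : a₀ ≤ 1 / 2
  hm : m ≤ a₀ / 128
  hm0 : 0 < m
  hκ : κ₀ ≤ a₀ / 512
  hε0 : 0 ≤ ε
  hε : ε ≤ κ₀
  he : e ≤ κ₀
  hν : ν ≤ κ₀
  hx₁ : 0 ≤ x₁
  hx : x₁ ^ 2 < 1 - 2 * b₁
  hτ : τ ≤ a₀ / 8

/-- The common data. -/
structure MkD [Finite ι] (F : ℂ → ℂ) (σ ε ε' xc e ν r ℓ : ℝ) (κ : ι → Set ℂ)
    (a₀ b₁ m κ₀ τ x₁ s h₁ t₁ rB : ℝ) (Kb Xb K : Set ℂ) (x₂ : ℝ) (q e₁ : ℂ) : Prop where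
  c : CM a₀ b₁ m κ₀ τ x₁ ε e ν
  M : Mk F σ ε ε' xc e ν r ℓ κ s (a₀ / 2) (a₀ / 8) m h₁ t₁ (Bf (ℓ / 2) rB) Kb Xb
    ((ℓ / 2 : ℝ) : ℂ) (x₂ : ℂ) q
  hK : IsMk (Pm ℓ (Ug F σ ε ε' xc κ)) (Ug F σ ε ε' xc κ) F σ ν s ℓ (h₁ + 2 * r + 3 * ℓ)
    (F ((-1 + s : ℝ) : ℂ)) e₁ K
  near : ∀ u ∈ Ug F σ ε ε' xc κ, u ∉ Bf (ℓ / 2) rB → (dinv F u).re ≤ x₁

variable [Finite ι] (D : MkD F σ ε ε' xc e ν r ℓ κ a₀ b₁ m κ₀ τ x₁ s h₁ t₁ rB Kb Xb K x₂ q e₁)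
include D

theorem MkD.hℓ : 0 < ℓ := D.M.sit.od.hℓ

theorem MkD.bad {y₀ u w : ℂ} (hbox : y₀ ∉ Bf (ℓ / 2) (rB + 12 * ℓ))
    (him : ∀ u ∈ Ug F σ ε ε' xc κ, dist u y₀ ≤ 12 * ℓ → σ * (dinv F u).im ≤ τ)
    (hu : u ∈ Ug F σ ε ε' xc κ) (hd : dist u y₀ ≤ 12 * ℓ) (hw : w ∉ Ug F σ ε ε' xc κ)
    (hwu : dist w u ≤ 3 * ℓ) : BadP σ (a₀ / 2) (a₀ / 8) e m (dinv F u) := by
  have c := D.c
  exact badP_of D.M.sit c.ha c.hab c.ha1 c.hm c.hm0 c.hκ c.hε0 c.hε c.he c.hν c.hx₁ c.hx c.hτ hu hw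
    hwu (D.near u hu fun h => hbox (bf_near h hd)) (him u hu hd)

/-- **Boundary points of low position are far from the mark.** -/
theorem MkD.clear {y₀ : ℂ} (hbox : y₀ ∉ Bf (ℓ / 2) (rB + 12 * ℓ))
    (him : ∀ u ∈ Ug F σ ε ε' xc κ, dist u y₀ ≤ 12 * ℓ → σ * (dinv F u).im ≤ τ) :
    9 * ℓ < dist y₀ e₁ := by
  by_contra hcon
  push Not at hcon
  have hℓ := D.hℓ
  obtain ⟨⟨G, hG, heG⟩, -⟩ := frontier_Pm hℓ D.hK.fr
  obtain ⟨u, hu, huU⟩ := hG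
  have hue : dist u e₁ ≤ 3 * ℓ := dist_le_of_bk hu (sqr_subset_bk hℓ heG)
  have huy : dist u y₀ ≤ 12 * ℓ := by
    have := dist_triangle_right u y₀ e₁
    linarith
  have heU : e₁ ∉ Ug F σ ε ε' xc κ := fun h =>
    (disjoint_frontier_iff_isOpen.2 isOpen_Pm).le_bot ⟨D.hK.fr, sub_Pm hℓ h⟩
  exact D.M.near_not_bad D.hK huU (by linarith)
    (D.bad hbox him huU huy heU (by rw [dist_comm]; exact hue))

/-- The mark is not in the box. -/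
theorem MkD.e_far : e₁ ∉ Bf (ℓ / 2) rB := by
  intro h
  have h1 := D.M.far e₁ h
  have h2 := D.hK.small D.hK.e_mem
  rw [mem_closedBall] at h2
  linarith

variable {n : ℕ} {p : ZMod n → ℤ × ℤ} {S Bm : Finset (ℤ × ℤ)} {i x Kd : ℕ} {P : Sh4} {te : ℝ}

/-- **The parameter of the point on the line.** -/
theorem MkD.exists_t2 (h : ShD ℓ (Pm ℓ (Ug F σ ε ε' xc κ)) e₁ te Kd p S Bm i x P)
    (hfl : ∀ z ∈ Bf (ℓ / 2) rF, z ∈ Pm ℓ (Ug F σ ε ε' xc κ) ↔ 0 < z.im) (hr : rB + 4 * ℓ ≤ rF)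
    (hx2 : (x₂ : ℂ) ∈ Bf (ℓ / 2) rB) (hσ : |σ| = 1) (hside : σ * (x₂ - ℓ / 2) < 0) :
    ∃ t2 ∈ Ioo (1 / 2 : ℝ) (1 / 2 + n), PF6 p ℓ t2 = (x₂ : ℂ) ∧ (σ = 1 → te < t2) ∧
      (σ = -1 → t2 < te) := by
  have hℓ := D.hℓ
  have hfl' : ∀ z : ℂ, |z.re - ℓ / 2| < rF → |z.im| < rF →
      (z ∈ Pm ℓ (Ug F σ ε ε' xc κ) ↔ 0 < z.im) := fun z h1 h2 => hfl z ⟨h1, h2⟩
  have hb : |x₂ - ℓ / 2| < rB := by simpa using hx2.1
  have hrB : 0 < rB := lt_of_le_of_lt (abs_nonneg _) hb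
  rw [abs_lt] at hb
  have key : ∀ y : ℝ, |y - ℓ / 2| < rB → (y : ℂ) ≠ e₁ := by
    intro y hy h1
    apply D.e_far
    rw [← h1]
    exact ⟨by simpa using hy, by simpa using hrB⟩
  rcases (abs_eq (zero_le_one)).1 hσ with h1 | h1
  · subst h1
    obtain ⟨t2, h2, h3, h4⟩ := exists_t2_l h hfl' (x₂ := x₂) (by linarith) (by linarith) (fun y h5 h6 =>
      key y (by rw [abs_lt]; constructor <;> linarith))
    exact ⟨t2, h2, h3, fun _ => h4, fun h5 => by norm_num at h5⟩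
  · subst h1
    obtain ⟨t2, h2, h3, h4⟩ := exists_t2_r h hfl' (x₂ := x₂) (by linarith) (by linarith) (fun y h5 h6 =>
      key y (by rw [abs_lt]; constructor <;> linarith))
    exact ⟨t2, h2, h3, fun h5 => by norm_num at h5, fun _ => h4⟩

/-- **Boundary points of low position are on the pushed-in side.** -/
theorem MkD.side (h : ShD ℓ (Pm ℓ (Ug F σ ε ε' xc κ)) e₁ te Kd p S Bm i x P)
    (hfl : ∀ z ∈ Bf (ℓ / 2) rF, z ∈ Pm ℓ (Ug F σ ε ε' xc κ) ↔ 0 < z.im) (hr : rB + 4 * ℓ ≤ rF)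
    (hx2 : (x₂ : ℂ) ∈ Bf (ℓ / 2) rB) (hσ : |σ| = 1) (hside : σ * (x₂ - ℓ / 2) < 0)
    {y₀ : ℂ} (hbox : y₀ ∉ Bf (ℓ / 2) (rB + 12 * ℓ))
    (him : ∀ u ∈ Ug F σ ε ε' xc κ, dist u y₀ ≤ 12 * ℓ → σ * (dinv F u).im ≤ τ)
    {ty : ℝ} (h1 : 1 / 2 ≤ ty) (h2 : ty < n + 1 / 2) (hy : PF6 p ℓ ty = y₀) :
    (σ = 1 → te < ty) ∧ (σ = -1 → ty < te) := by
  have hℓ := D.hℓ
  have c := D.c
  obtain ⟨t2, g1, g2, g3, g4⟩ := D.exists_t2 h hfl hr hx2 hσ hside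
  have hrB : 0 < rB := lt_of_le_of_lt (abs_nonneg _) hx2.1
  have hb0 : y₀ ≠ ((ℓ / 2 : ℝ) : ℂ) := by
    rintro rfl
    apply hbox
    refine ⟨?_, ?_⟩
    · rw [Complex.ofReal_re, sub_self, abs_zero]
      linarith
    · rw [Complex.ofReal_im, abs_zero]
      linarith
  have h1' : 1 / 2 < ty := by
    refine lt_of_le_of_ne h1 fun h3 => hb0 ?_
    rw [← hy, ← h3]
    exact tb_eq h
  have hyf : y₀ ∈ frontier (Pm ℓ (Ug F σ ε ε' xc κ)) := by rw [h.fr_eq]; exact ⟨ty, hy⟩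
  obtain ⟨⟨G, hG, hyG⟩, -⟩ := frontier_Pm hℓ hyf
  obtain ⟨u, hu, huU⟩ := hG
  have huy : dist u y₀ ≤ 3 * ℓ := dist_le_of_bk hu (sqr_subset_bk hℓ hyG)
  have hyU : y₀ ∉ Ug F σ ε ε' xc κ := fun h =>
    (disjoint_frontier_iff_isOpen.2 isOpen_Pm).le_bot ⟨hyf, sub_Pm hℓ h⟩
  have hbad := D.bad hbox him huU (by linarith) hyU (by rw [dist_comm]; exact huy)
  have hfar : ∀ x ∈ Bf (ℓ / 2) rB, 6 * ℓ < dist x (PF6 p ℓ ty) := by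
    intro x hx
    rw [hy]
    by_contra hcon
    push Not at hcon
    exact hbox (bf_mono (by linarith) (bf_near hx hcon))
  have hi1 : (1 : ℝ) ≤ i := by exact_mod_cast h.i1
  have hi2 : (i : ℝ) + 1 ≤ n := by exact_mod_cast h.i2
  have ite : te ∈ Ioo (1 / 2 : ℝ) (1 / 2 + n) :=
    ⟨by have := h.te1; linarith, by have := h.te2; linarith⟩
  have ity : ty ∈ Ioo (1 / 2 : ℝ) (1 / 2 + n) := ⟨h1', by linarith⟩
  have hyG' : PF6 p ℓ ty ∈ sqr ℓ G := by rw [hy]; exact hyG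
  obtain ⟨k1, k2⟩ := D.M.ord (by have := c.ha1; linarith) D.hK h.jc h.fr_eq (tb_eq h) h.te_eq g2
    ite g1 ity hfar ⟨u, hu, huU⟩ hyG' hu huU hbad
  constructor
  · intro h3
    rcases lt_trichotomy ty te with h4 | h4 | h4
    · exact absurd (k2.1 h4) (not_lt.2 (g3 h3).le)
    · exact absurd h4 k1
    · exact h4
  · intro h3
    exact k2.2 (g4 h3)

end

section

variable {ρ N j Kd Kc : ℕ} {P : Sh4} {ℓ : ℝ}

/-- The points of the line between `c` and the target. -/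
theorem line_box (hOk : P.Ok ρ) (hl : P.l + Kd = P.m) (hc : P.j + Kc = P.m) (hℓ : 0 < ℓ)
    (hN : 0 < N) (h1 : P.j * N < j) (h2 : 2 * j < (2 * P.m + 1) * N) :
    ((ℓ / 5 / N : ℝ) : ℂ) * pt (PN P.q N j) - tau ℓ Kd ∈ Bf (ℓ / 2) (ℓ / 5 * (Kc + 1)) := by
  have hNr : (0 : ℝ) < N := by exact_mod_cast hN
  have hj := Nat.div_add_mod' j N
  have hb := Nat.mod_lt j hN
  set a := j / N with ha
  set b := j % N with hb'
  have ha1 : P.j ≤ a := (Nat.le_div_iff_mul_le hN).2 h1.le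
  have ha2 : a ≤ P.m := by
    by_contra hcon
    push Not at hcon
    have h3 : (P.m + 1) * N ≤ a * N := Nat.mul_le_mul_right _ hcon
    have h4 : a * N ≤ j := by omega
    nlinarith
  have q1 : P.q ((a : ℕ) : ZMod P.m) = ((a : ℤ) - P.l, 0) := hOk.line a (by omega) (by omega)
  have q2 : P.q ((a + 1 : ℕ) : ZMod P.m) = ((a : ℤ) + 1 - P.l, 0) := by
    have := hOk.line (a + 1) (by omega) (by omega)
    push_cast at this ⊢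
    exact this
  have e1 : dir (pdir P.q a) = (1, 0) := pdir_of hOk.poly (by rw [q2, q1]; ext <;> simp; ring)
  have e2 : PN P.q N j = ((j : ℤ) - N * P.l, 0) := by
    rw [← hj, PN_lin hN hb, q1, e1]
    ext
    · simp only [Prod.fst_add, Prod.smul_fst, smul_eq_mul]
      push_cast
      ring
    · simp
  have e3 : ((ℓ / 5 / N : ℝ) : ℂ) * pt (PN P.q N j) - tau ℓ Kd =
      ((ℓ / 5 * (j / N - P.m + 2) : ℝ) : ℂ) := by
    rw [e2]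
    have e4 : (P.m : ℝ) = P.l + Kd := by exact_mod_cast hl.symm
    unfold tau
    rw [e4]
    apply Complex.ext
    · rw [Complex.sub_re, Complex.re_ofReal_mul, Complex.ofReal_re, Complex.ofReal_re]
      simp only [pt]
      push_cast
      field_simp
      ring
    · rw [Complex.sub_im, Complex.im_ofReal_mul, Complex.ofReal_im, Complex.ofReal_im]
      simp [pt]
  have hlo : (P.m : ℝ) - Kc < j / N := by
    rw [lt_div_iff₀ hNr]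
    have e4 : (P.m : ℝ) - Kc = P.j := by
      have : (P.m : ℝ) = P.j + Kc := by exact_mod_cast hc.symm
      linarith
    rw [e4]
    exact_mod_cast h1
  have hhi : (j : ℝ) / N < P.m + 1 / 2 := by
    rw [div_lt_iff₀ hNr]
    have h3 : (2 : ℝ) * j < (2 * P.m + 1) * N := by exact_mod_cast h2
    linarith
  rw [e3]
  have hu : 0 < ℓ / 5 := by positivity
  refine ⟨?_, ?_⟩
  · rw [Complex.ofReal_re, show ℓ / 5 * ((j : ℝ) / N - P.m + 2) - ℓ / 2 =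
      ℓ / 5 * ((j : ℝ) / N - P.m - 1 / 2) by ring, abs_mul, abs_of_pos hu]
    refine mul_lt_mul_of_pos_left ?_ hu
    rw [abs_lt]
    constructor <;> linarith [(by positivity : (0 : ℝ) ≤ Kc)]
  · rw [Complex.ofReal_im, abs_zero]
    positivity

end

section

variable {ι : Type*} {F : ℂ → ℂ} {σ ε ε' xc e ν r ℓ : ℝ} {κ : ι → Set ℂ}
    {a₀ b₁ m κ₀ τ x₁ s h₁ t₁ rB rF x₂ : ℝ} {Kb Xb K : Set ℂ} {q e₁ : ℂ} [Finite ι]
    (D : MkD F σ ε ε' xc e ν r ℓ κ a₀ b₁ m κ₀ τ x₁ s h₁ t₁ rB Kb Xb K x₂ q e₁)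
    {n : ℕ} {p : ZMod n → ℤ × ℤ} {S Bm : Finset (ℤ × ℤ)} {i x Kd : ℕ} {P : Sh4} {te : ℝ}
include D

/-- **The index of a boundary site of low position.** -/
theorem MkD.idx (h : ShD ℓ (Pm ℓ (Ug F σ ε ε' xc κ)) e₁ te Kd p S Bm i x P)
    (hfl : ∀ z ∈ Bf (ℓ / 2) rF, z ∈ Pm ℓ (Ug F σ ε ε' xc κ) ↔ 0 < z.im) (hr : rB + 4 * ℓ ≤ rF)
    (hx2 : (x₂ : ℂ) ∈ Bf (ℓ / 2) rB) (hσ : |σ| = 1) (hside : σ * (x₂ - ℓ / 2) < 0)
    {ρ Kc N : ℕ} (hOk : P.Ok ρ) (hl : P.l + Kd = P.m) (hc : P.j + Kc = P.m) (hN : 0 < N)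
    (hKc : ℓ / 5 * (Kc + 1) ≤ rB) {s' : ℤ × ℤ}
    (hs : ((ℓ / 5 / N : ℝ) : ℂ) * pt s' ∈ frontier (emb (ℓ / 5) P))
    (hbox : ((ℓ / 5 / N : ℝ) : ℂ) * pt s' - tau ℓ Kd ∉ Bf (ℓ / 2) (rB + 12 * ℓ))
    (him : ∀ u ∈ Ug F σ ε ε' xc κ, dist u (((ℓ / 5 / N : ℝ) : ℂ) * pt s' - tau ℓ Kd) ≤ 12 * ℓ →
      σ * (dinv F u).im ≤ τ) :
    ∃ j : ℕ, PN P.q N j = s' ∧ N ≤ 2 * j ∧ (σ = 1 → (P.k + 1) * N ≤ j ∧ j ≤ P.j * N) ∧
      (σ = -1 → j ≤ P.k * N) := by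
  have hℓ := D.hℓ
  obtain ⟨j, h1, h2, h3⟩ := h.site_fr hN hs
  have hfar := D.clear hbox him
  refine ⟨j, h3, h1, ?_⟩
  rcases h.arc hN h1 h2 with h4 | ⟨t, t1, t2, t3, t4⟩
  · exfalso
    rw [h3] at h4
    have h5 : dist (((ℓ / 5 / N : ℝ) : ℂ) * pt s' - tau ℓ Kd) e₁ ≤ 3 * ℓ := by
      rw [← dist_add_right _ _ (tau ℓ Kd), sub_add_cancel]
      exact h4
    linarith
  · rw [h3] at t3
    obtain ⟨k1, k2⟩ := D.side h hfl hr hx2 hσ hside hbox him t1 t2 (eq_sub_of_add_eq t3)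
    constructor
    · intro h5
      have h6 := k1 h5
      rcases t4 with ⟨t5, -⟩ | ⟨-, t5⟩
      · exact absurd t5 (not_lt.2 h6.le)
      · refine ⟨t5, ?_⟩
        by_contra hcon
        push Not at hcon
        have h7 := line_box hOk hl hc hℓ hN hcon h2
        rw [h3] at h7
        exact hbox (bf_mono (by linarith) h7)
    · intro h5
      have h6 := k2 h5
      rcases t4 with ⟨-, t5⟩ | ⟨t5, -⟩
      · exact t5
      · exact absurd t5 (not_lt.2 h6.le)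

end

end Vale.Agent.P167.H638.SM
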