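import Vale.Agent.P167.H259.S.S3
import Vale.Agent.P167.H713.Q.Chain

/-!
# P167, general `q`, [SEAM-34] (s4): the position at a seen boundary site, in the frame

`s4_frm`: a site of a seen set which is the corner of an unread square outside of the shape, off `Bad`:
the points of `U` near it have a low position.
-/

set_option autoImplicit false

namespace Vale.Agent.P167.H638.SM

open Set Metric Filter Topology
open Vale.Agent.P153.R2.R1 (Conf dinv)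
open Vale.Agent.P153.R2.L1 (HH)
open Vale.Agent.P164 (loewnerDomain)
open Vale.Agent.P167.E6 Vale.Agent.P167.E2
open Vale.Agent.P167.H756 (FD)
open Vale.Agent.P167.SG
open Vale.Agent.P167.H450 Vale.Agent.P167.H450.Out
open Vale.Agent.P167.H634 (SqD)
open Vale.Agent.P167.H72.SD (dk)
open Vale.Agent.P167.H161 (zp)
open Vale.Agent.P167.FKA (Cor)
open Vale.Agent.P167.H397.K (frm conn_frm jd_frm mem_frm dist_frm ball_frm frm_inj)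
open Vale.Agent.P167.H713.Q (Dn Sd NearS Seen Io clos conv_io io_sub io_nonempty Io_sub dist_SqD
  cor_SqD edges_of_dk)
open Vale.Agent.P167.H259.S (hb union_E seen_frm)

/-- The small set at a site of an unread square. -/
theorem small_C {n : ℕ} {p : ZMod n → ℤ × ℤ} {k : ℕ} {S : Finset (ℤ × ℤ)}
    {A : Finset (Sym2 (ℤ × ℤ))} {j : ℕ} {δ : ℝ} (hδ : 0 < δ) (hA : A ⊆ edges S)
    (hj : j - 1 ≤ len p k A) {y s : ℤ × ℤ} (hy : y ∈ dk p k S A j) (hys : Cor y s)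
    (hs : zp δ s ∈ Dn p k S A j δ) :
    IsPreconnected (insert (zp δ s) (Io δ y ∩ Om δ S)) ∧
      insert (zp δ s) (Io δ y ∩ Om δ S) ⊆ Dn p k S A j δ ∧
      insert (zp δ s) (Io δ y ∩ Om δ S) ⊆ SqD δ y ∧ (Io δ y ∩ Om δ S).Nonempty := by
  have he := edges_of_dk hy
  refine ⟨?_, insert_subset hs (io_sub hδ hA hj hy),
    insert_subset (cor_SqD hδ hys) (inter_subset_left.trans (Io_sub hδ y)), io_nonempty hδ he⟩
  exact (conv_io hδ he).isPreconnected.subset_closure (subset_insert _ _)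
    (insert_subset (clos hδ he (cor_SqD hδ hys) hs.1) subset_closure)

section

variable {ι : Type} {T R x3 xB τ κ x' xc ε η e ν X1 X3 : ℝ} {ψ : ℂ → ℂ} {W : ℝ → ℝ}
    {t σ xb rf cg δ₀ r₀ ρ r' ℓ s₂ : ℝ} {Gt IN : Set ℂ} {x₁ tp : ℂ} {K : ι → Set ℂ}
    (H : Sat T R x3 xB τ κ x' xc ε η e ν X1 X3 ψ W t σ xb rf cg δ₀ r₀ ρ r' ℓ s₂ Gt IN x₁ tp K)
    {n : ℕ} {p : ZMod n → ℤ × ℤ} {k : ℕ} {S : Finset (ℤ × ℤ)} {A : Finset (Sym2 (ℤ × ℤ))}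
    {j : ℕ} {δ : ℝ} {v₁ x₀ : ℤ × ℤ} {Pm' O : Set ℂ} {X : Set ℂ} {rb : ℝ}

include H

/-- **The position at a seen boundary site.** -/
theorem s4_frm [Finite ι] (h8 : 8 * R ≤ X3) (h64 : 64 * T ≤ X3 ^ 2) (hκ : κ ≤ 1 - ρb X3)
    {te : ι → Prop} {r₂ r₃ : ℝ} (hr₃ : r₃ ≤ rf) (hr₃' : rf / 4 ≤ r₃)
    (HT : Te (ψ '' loewnerDomain W t) K te xb r₂ r₃)
    {X4 : ℝ} (h84 : 8 * R ≤ X4) (h644 : 64 * T ≤ X4 ^ 2) (hκ4 : κ ≤ 1 - ρb X4)
    (h34 : X3 ≤ X4) (hrb : rb ≤ r₃) (hnear : ∀ z ∈ HH, X4 ≤ ‖z‖ → ψ z ∈ Bf xb rb)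
    (hup : hb xb rb δ₀ ⊆ Ug (FD ψ W t) σ ε (τ / 2) xc (fun i => dinv (FD ψ W t) '' K i))
    (hD : ψ '' loewnerDomain W t = frm δ v₁ '' Dn p k S A j δ)
    (hO : ∀ i, ¬ te i → K i ⊆ frm δ v₁ '' O)
    (hx0 : ∀ w ∈ Io δ x₀, frm δ v₁ w ∈ hb xb rb δ₀)
    (hcl : ∀ z ∈ closure Pm', frm δ v₁ z ∈
      closure (Pm ℓ (Ug (FD ψ W t) σ ε (τ / 2) xc (fun i => dinv (FD ψ W t) '' K i))) ∨
      ∃ u ∈ Ug (FD ψ W t) σ ε (τ / 2) xc (fun i => dinv (FD ψ W t) '' K i),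
        dist (frm δ v₁ z) u ≤ 12 * ℓ)
    (hsub : ∀ z, frm δ v₁ z ∈
      Pm ℓ (Ug (FD ψ W t) σ ε (τ / 2) xc (fun i => dinv (FD ψ W t) '' K i)) → z ∈ Pm')
    (hδ : 0 < δ) (hδℓ : δ ≤ 3 * ℓ) (hA : A ⊆ edges S) (hj : j - 1 ≤ len p k A)
    (hX : Seen (Dn p k S A j δ) O Pm' δ x₀ X) {s y : ℤ × ℤ} (hs : zp δ s ∈ X)
    (hy : y ∈ dk p k S A j) (hys : Cor y s) (hyO : Disjoint (SqD δ y) O)
    (hyP : Disjoint (Io δ y) Pm')
    (hline : ∀ w ∈ Io δ y, frm δ v₁ w ∈ Bf xb rf → 0 < (frm δ v₁ w).im) {u : ℂ}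
    (hu : u ∈ Ug (FD ψ W t) σ ε (τ / 2) xc (fun i => dinv (FD ψ W t) '' K i))
    (hd : dist u (frm δ v₁ (zp δ s)) ≤ 12 * ℓ) : σ * (dinv (FD ψ W t) u).im ≤ τ := by
  obtain ⟨a1, a2, a3, a4⟩ := seen_frm hD hx0 hcl hX
  obtain ⟨b1, b2, b3, b4⟩ := union_E H h84 h644 hκ4 h34 (hrb.trans hr₃) hnear a1 a2 a3
  obtain ⟨c1, c2, c3, v, c4⟩ := small_C hδ hA hj hy hys (hX.sub hs)
  have hℓ := H.hℓ
  have hKX : ∀ {Y : Set ℂ}, Disjoint Y O → ∀ i, ¬ te i → Disjoint (frm δ v₁ '' Y) (K i) := by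
    intro Y hY i hi
    exact ((disjoint_image_iff (frm_inj δ v₁)).2 hY).mono_right (hO i hi)
  refine H.s4_im h8 h64 hκ hr₃ hr₃' HT b1 b2 ?_ ?_ b3 b4 (C := frm δ v₁ '' insert (zp δ s)
    (Io δ y ∩ Om δ S)) (conn_frm.2 c1) (by rw [hD]; exact image_mono c2)
    (hKX (hyO.mono_left c3)) ?_ (Or.inl (mem_image_of_mem _ hs))
    (mem_image_of_mem _ (mem_insert _ _)) (mem_image_of_mem _ (Or.inr c4)) ?_ ?_ hu hd
  · intro i hi
    refine Disjoint.union_left (hKX hX.off i hi) ?_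
    exact (HT.off i hi).symm.mono_left fun w hw => bf_mono hrb hw.1
  · rintro x (hx | hx)
    · exact a4 x hx
    · refine Or.inr ⟨x, hup hx, ?_⟩
      rw [dist_self]
      linarith
  · rintro _ ⟨x, hx, rfl⟩ _ ⟨z, hz, rfl⟩
    rw [dist_frm]
    exact (dist_SqD hδ (c3 hx) (c3 hz)).trans hδℓ
  · by_cases h1 : frm δ v₁ v ∈ Bf xb r₃
    · exact Or.inl (hline v c4.1 (bf_mono hr₃ h1))
    · exact Or.inr h1
  · exact fun h => Set.disjoint_left.1 hyP c4.1 (hsub v h)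

end

end Vale.Agent.P167.H638.SM
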