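import Vale.Agent.P167.H259.S.CxS3
import Vale.Agent.P167.H259.S.ArcI
import Vale.Agent.P167.H638.SM.ArcS
import Vale.Agent.P167.H638.SM.S4F

/-!
# P167, general `q`, [SEAM-34]: the field `s4` for the situation of one history

* `in_arc` : a boundary site of the shape off the box of the target, near which the positions of the
  points of `U` are low, is on the pushed-in side of the shape;
* `f_s4` : the field `s4`.
-/

set_option autoImplicit false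

namespace Vale.Agent.P167.H638.SM

open Set Metric Filter Topology
open Vale.Agent.P153.R2.R1 (Conf dinv)
open Vale.Agent.P153.R2.L1 (HH)
open Vale.Agent.P164 (loewnerDomain)
open Vale.Agent.P167.E6 (IsPolygon Encloses edges pt)
open Vale.Agent.P167.E2 (len)
open Vale.Agent.P167.H756 (FD)
open Vale.Agent.P167.SG
open Vale.Agent.P167.H450 Vale.Agent.P167.H450.Out
open Vale.Agent.P167.QT
open Vale.Agent.P167.Enl (PN)
open Vale.Agent.P167.H192 (ro)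
open Vale.Agent.P167.H411 (exn Set6)
open Vale.Agent.P167.H397.K (frm cont_frm frmH frmH_eq OO Kf Obs finite_idx)
open Vale.Agent.P167.H713.Q (Dn Sd NearS Seen Io Io_sub x0 frm_sq Arc del_dl)
open Vale.Agent.P167.H446.G (Cst Hst psr vd Ku Ku_le Nn_le dl_pos emb rS rR bad Bef)
open Vale.Agent.P167.H704.Shp
open Vale.Agent.P167.H632G (ShD tau)
open Vale.Agent.P167.H506.SHP
open Vale.Agent.P167.H634 (SqD)
open Vale.Agent.P167.H161 (zp)
open Vale.Agent.P167.FKA (Cor)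
open Vale.Agent.P167.H72.SD (dk Wr)
open Vale.Agent.P167.H259.S (frm_vd hcl_cx x0_hb arc_free arc_wired)

/-- The sites in the frame. -/
theorem frm_zp {δ : ℝ} (hδ : 0 < δ) (v₀ v : ℤ × ℤ) :
    frm δ v₀ (zp δ v) = (H446.G.dl δ : ℂ) * pt (v - v₀) := by
  unfold frm
  apply Complex.ext
  · rw [rot_re hδ, zp_sub, Complex.re_ofReal_mul, mul_div_cancel_left₀ _ hδ.ne']
    simp [pt]
  · rw [rot_im hδ, zp_add, Complex.im_ofReal_mul, mul_div_cancel_left₀ _ hδ.ne']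
    simp [pt]

theorem PmU_frm (δ : ℝ) (v₀ : ℤ × ℤ) (N : ℕ) (P : Sh4) :
    PmU δ v₀ N P = frm δ v₀ ⁻¹' emb (H446.G.dl δ * N) P := rfl

/-- The frontier in the frame. -/
theorem fr_emb {δ : ℝ} {v₀ : ℤ × ℤ} {N : ℕ} {P : Sh4} {z : ℂ}
    (hz : z ∈ frontier (PmU δ v₀ N P)) : frm δ v₀ z ∈ frontier (emb (H446.G.dl δ * N) P) := by
  rw [PmU_frm, ← frmH_eq, ← (frmH δ v₀).preimage_frontier] at hz
  exact hz

section

variable {C : Cst} {K : Kst} {δ : ℕ → ℝ} {N k : ℕ → ℕ} {p : ∀ n, ZMod (N n) → ℤ × ℤ}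
  {S : ℕ → Finset (ℤ × ℤ)} {ψn : ℕ → ℂ → ℂ} {s : ℝ} {n : ℕ} {A : Hst} {j : ℕ} {c : Bool} {O : Obj}

theorem lb_div (hN : 0 < H446.G.Nn s (δ n)) :
    lb s (δ n) / 5 / (H446.G.Nn s (δ n) : ℝ) = H446.G.dl (δ n) := by
  have : (0 : ℝ) < H446.G.Nn s (δ n) := by exact_mod_cast hN
  unfold lb
  field_simp

theorem lb_five : lb s (δ n) / 5 = H446.G.dl (δ n) * (H446.G.Nn s (δ n) : ℝ) := by
  unfold lb
  ring

/-- The outer polygon is in the shape. -/
theorem sub_cx (h : Cx C K δ N k p S ψn s n A j c O) {z : ℂ}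
    (hz : frm (δ n) (v1 (p n) (k n) C.Ld s (δ n)) z ∈ P1 C K δ N k p S ψn s n A j c O.Th) :
    z ∈ PmU (δ n) (vd (p n) (k n) C.Ld s (δ n)) (H446.G.Nn s (δ n)) O.P := by
  rw [PmU_frm, mem_preimage, frm_vd, ← lb_five]
  exact h.shd.sub hz

/-- The data of the mark. -/
theorem mkd (h : Cx C K δ N k p S ψn s n A j c O) (hK : K.Ok C)
    [Finite (↥(Obs (p n) (k n) (S n) A j (δ n) c (rS s (δ n)) (rR K.r (δ n))) ⊕ O.κ')] :
    MkD (F1 C δ N k p S ψn s n A j) (H653.St.sg c) K.ε (K.τ / 2) K.xc K.e K.ν (2 * (2 * K.r))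
      (lb s (δ n)) (fun i => dinv (F1 C δ N k p S ψn s n A j) '' K1 C K δ N k p S s n A j c O.Th i)
      K.a₀ K.b₁ K.m K.κ₀ K.τ (xre K.X4) O.sm K.h₁ K.t₁ (K.rc / 4) O.Kb O.Xb O.Km O.x₂ O.q
      O.e' where
  c := by
    have c1 := hK.cst
    have c2 := c1.g2
    have c3 := c1.hε
    have c4 := c1.he
    have c5 := c1.hν
    have c6 := hK.κκ
    have c7 := hK.a00
    have c8 := hK.ab
    have c9 := hK.b01
    have c10 := hK.b02
    have hX : 0 < K.X1 := h.sat.flt.hX1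
    have hX4 : 1 ≤ K.X4 := by
      have := hK.X1R
      have := hK.R0
      have := hK.X13
      have := hK.X34
      linarith
    exact
      { ha := c7
        hab := by linarith
        ha1 := by linarith
        hm := hK.ma
        hm0 := hK.m0
        hκ := hK.κa
        hε0 := c3.le
        hε := by linarith
        he := by linarith
        hν := by linarith
        hx₁ := xre_nonneg hX4
        hx := hK.b1x
        hτ := hK.τa }
  M := h.hmk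
  hK := h.isMk
  near := by
    intro u hu hb
    by_contra hcon
    push Not at hcon
    have hsat := h.sat
    have hR := hK.X1R
    have hT := hK.X1T
    have hT0 := hK.T0
    have hR0 := hK.R0
    have h13 := hK.X13
    have h34 := hK.X34
    have hrc := hK.rc0
    have hX1 : 0 < K.X1 := hsat.flt.hX1
    have huD : u ∈ D1 C δ N k p S ψn s n A j := by
      have := hsat.sit.sub hu
      rwa [hsat.img] at this
    obtain ⟨z, hz, rfl⟩ := huD
    rw [hsat.dinv_ψ hz] at hcon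
    have h1 := far_of_re hsat.drv (X3 := K.X4) hX1 hsat.h4 hsat.h16 (by linarith) (by linarith) hz
      hcon
    exact hb (bf_mono (by linarith) (h.near4 z (Vale.Agent.P164.im_pos_of_dom hsat.drv.nn hz) h1.le))

/-- **Boundary sites of low position are on the pushed-in side.** -/
theorem in_arc (h : Cx C K δ N k p S ψn s n A j c O) (hK : K.Ok C) (hδ : 0 < δ n) (hs : 0 < s)
    (hN : 8 ≤ H446.G.Nn s (δ n)) {v : ℤ × ℤ}
    (hv : zp (δ n) v ∈ frontier (PmO C δ N k p s n O))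
    (hbox : frm (δ n) (v1 (p n) (k n) C.Ld s (δ n)) (zp (δ n) v) ∉
      Bf (lb s (δ n) / 2) (K.rc / 4 + 12 * lb s (δ n)))
    (him : ∀ u ∈ U1 C K δ N k p S ψn s n A j c O.Th,
      dist u (frm (δ n) (v1 (p n) (k n) C.Ld s (δ n)) (zp (δ n) v)) ≤ 12 * lb s (δ n) →
      H653.St.sg c * (dinv (F1 C δ N k p S ψn s n A j) u).im ≤ K.τ) :
    Arc c (Dm C δ N k p s n O) (Zt C δ N k p s n O)
      (Wr (Dm C δ N k p s n O) (Zt C δ N k p s n O))
      (arcc (H446.G.Nn s (δ n)) (vd (p n) (k n) C.Ld s (δ n)) O.P) v := by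
  have hf := h.fin
  have hfi := finite_idx (p := p n) (k := k n) (S := S n) (A := A) (j := j) (c := c)
    (ρ := rS s (δ n)) (R := rR K.r (δ n)) hδ
  have D := mkd h hK
  have hN0 : 0 < H446.G.Nn s (δ n) := by omega
  have e1 := lb_div (s := s) (δ := δ) (n := n) hN0
  have e2 : ((lb s (δ n) / 5 / (H446.G.Nn s (δ n) : ℝ) : ℝ) : ℂ) *
      pt (v - vd (p n) (k n) C.Ld s (δ n)) =
      frm (δ n) (vd (p n) (k n) C.Ld s (δ n)) (zp (δ n) v) := by
    rw [e1, frm_zp hδ]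
  have e3 : ((lb s (δ n) / 5 / (H446.G.Nn s (δ n) : ℝ) : ℝ) : ℂ) *
      pt (v - vd (p n) (k n) C.Ld s (δ n)) - tau (lb s (δ n)) (Ku C.Ld s) =
      frm (δ n) (v1 (p n) (k n) C.Ld s (δ n)) (zp (δ n) v) := by
    rw [e2, frm_vd, add_sub_cancel_right]
  obtain ⟨hOk, hl, hc, -⟩ := h.fam
  have hlb := h.lb1
  have hs2 := h.s2
  have hrc := hK.rc0
  have hun := Nn_le hs hδ
  have hsm := hK.sm
  have hm := hsm.m_pos
  have hm1 := hsm.m_Ld
  have hm2 := hsm.Ld_Lc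
  have hm3 := hsm.Lc_le
  have hKu := Ku_le (show 0 ≤ C.Lc by linarith) hs
  obtain ⟨i, i1, i2, i3, i4⟩ := D.idx h.shd h.fl (by linarith) h.x₂_mem (H653.St.abs_sg c)
    h.x₂_side hOk hl hc hN0 (by
      rw [lb_five]
      calc H446.G.dl (δ n) * (H446.G.Nn s (δ n) : ℝ) * ((Ku C.Lc s : ℝ) + 1) ≤
          s * ((Ku C.Lc s : ℝ) + 1) := mul_le_mul_of_nonneg_right hun (by positivity)
        _ ≤ K.rc / 4 := by linarith) (s' := v - vd (p n) (k n) C.Ld s (δ n))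
    (by
      rw [e2, lb_five]
      exact fr_emb hv)
    (by rw [e3]; exact hbox) (by rw [e3]; exact him)
  cases c
  · have h5 := i4 (by simp [H653.St.sg])
    exact arc_wired hOk (by omega) (H446.G.even_vd _ _ _ _ _) i1.symm (by omega) (by omega)
  · obtain ⟨h5, h6⟩ := i3 (by simp [H653.St.sg])
    refine arc_free hOk (by omega) i1.symm ?_ h6
    have h7 : (O.P.k + 1) * H446.G.Nn s (δ n) = O.P.k * H446.G.Nn s (δ n) + H446.G.Nn s (δ n) := by
      ring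
    omega

/-- The squares of the domain near the target are above the line. -/
def LineF (C : Cst) (K : Kst) (δ : ℕ → ℝ) {N : ℕ → ℕ} (k : ℕ → ℕ)
    (p : ∀ n, ZMod (N n) → ℤ × ℤ) (S : ℕ → Finset (ℤ × ℤ)) (s : ℝ) (n : ℕ) : Prop :=
  ∀ y ∈ H718.Dq (S n) (p n) (k n), ∀ w ∈ SqD (δ n) y,
    frm (δ n) (v1 (p n) (k n) C.Ld s (δ n)) w ∈ Bf (lb s (δ n) / 2) K.rf →
    (ro (p n (k n))).2 ≤ y.2

theorem LineF.im (hL : LineF C K δ k p S s n) (hδ : 0 < δ n) {y : ℤ × ℤ}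
    (hy : y ∈ H718.Dq (S n) (p n) (k n)) {w : ℂ} (hw : w ∈ Io (δ n) y)
    (hb : frm (δ n) (v1 (p n) (k n) C.Ld s (δ n)) w ∈ Bf (lb s (δ n) / 2) K.rf) :
    0 < (frm (δ n) (v1 (p n) (k n) C.Ld s (δ n)) w).im := by
  have h1 := hL y hy w (Io_sub hδ y hw) hb
  have hdl := dl_pos hδ
  have e2 : (v1 (p n) (k n) C.Ld s (δ n)).2 = (ro (p n (k n))).2 := by
    unfold v1 vd
    simp
  have h3 : ((ro (p n (k n))).2 : ℝ) ≤ y.2 := by exact_mod_cast h1
  have h4 : (y.2 : ℝ) < (w.re + w.im) / δ n := by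
    rw [lt_div_iff₀ hδ]
    have := hw.2.1
    linarith
  unfold frm
  rw [rot_im hδ, e2]
  exact mul_pos hdl (by linarith)

/-- **The field `s4`, one history.** -/
theorem s4_cx (h : Cx C K δ N k p S ψn s n A j c O) (hK : K.Ok C)
    (B : Bas K δ N k p S s n A j) (hN : 8 ≤ H446.G.Nn s (δ n))
    (hD : D1 C δ N k p S ψn s n A j =
      frm (δ n) (v1 (p n) (k n) C.Ld s (δ n)) '' Dn (p n) (k n) (S n) A j (δ n))
    (hL : LineF C K δ k p S s n) {X : Set ℂ} (hX : SeenX C K δ N k p S s n A j c O X)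
    {v : ℤ × ℤ} (hv : zp (δ n) v ∈ X) (hvf : zp (δ n) v ∈ frontier (PmO C δ N k p s n O))
    {y : ℤ × ℤ} (hy : y ∈ dk (p n) (k n) (S n) A j)
    (hyb : y ∉ bad (p n) (k n) (S n) (δ n) K.r s A j c) (hyP : y ∉ Dm C δ N k p s n O)
    (hyv : Cor y v) :
    Arc c (Dm C δ N k p s n O) (Zt C δ N k p s n O)
      (Wr (Dm C δ N k p s n O) (Zt C δ N k p s n O))
      (arcc (H446.G.Nn s (δ n)) (vd (p n) (k n) C.Ld s (δ n)) O.P) v := by
  have hδ := B.δ0
  have hs := B.s0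
  have hf := h.fin
  have hfi := finite_idx (p := p n) (k := k n) (S := S n) (A := A) (j := j) (c := c)
    (ρ := rS s (δ n)) (R := rR K.r (δ n)) hδ
  have hsat := h.sat
  have hR := hK.X1R
  have hT := hK.X1T
  have hT0 := hK.T0
  have hR0 := hK.R0
  have h13 := hK.X13
  have h34 := hK.X34
  have hrcf := hK.rcf
  have hrc := hK.rc0
  have hX1 : 0 < K.X1 := hsat.flt.hX1
  have h14 : K.X1 ≤ K.X4 := h13.trans h34
  have hℓ : 0 < lb s (δ n) := h.shd.hℓ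
  have hlb := h.lb1
  have hs2 := h.s2
  have hdl := dl_pos hδ
  have hdδ := del_dl hδ
  have hyq : y ∈ H718.Dq (S n) (p n) (k n) := (Finset.mem_sdiff.1 hy).1
  have hdisj : Disjoint (Io (δ n) y) (PmO C δ N k p s n O) := p2 hδ y hyP
  have hδℓ : 20 * δ n ≤ lb s (δ n) := by
    have h8 : (8 : ℝ) ≤ H446.G.Nn s (δ n) := by exact_mod_cast hN
    unfold lb
    nlinarith
  have hq3 : K.X1 ^ 2 ≤ K.X3 ^ 2 := by nlinarith
  have hq4 : K.X1 ^ 2 ≤ K.X4 ^ 2 := by nlinarith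
  -- the box of the target
  have hbox : frm (δ n) (v1 (p n) (k n) C.Ld s (δ n)) (zp (δ n) v) ∉
      Bf (lb s (δ n) / 2) (K.rc / 4 + 12 * lb s (δ n)) := by
    intro hb
    obtain ⟨w, hw⟩ := H506.SHP.Io_nonempty hδ y
    have h1 : dist (frm (δ n) (v1 (p n) (k n) C.Ld s (δ n)) (zp (δ n) v))
        (frm (δ n) (v1 (p n) (k n) C.Ld s (δ n)) w) ≤ δ n := by
      rw [H397.K.dist_frm]
      exact H713.Q.dist_SqD hδ (H713.Q.cor_SqD hδ hyv) (Io_sub hδ y hw)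
    have h2 := bf_near hb h1
    have h3 : frm (δ n) (v1 (p n) (k n) C.Ld s (δ n)) w ∈ Bf (lb s (δ n) / 2) (K.rc / 2) :=
      bf_mono (by linarith) h2
    have h4 := hL.im hδ hyq hw (bf_mono (by linarith) h3)
    exact Set.disjoint_left.1 hdisj hw (sub_cx h ((h.fl _ h3).2 h4))
  refine in_arc h hK hδ hs hN hvf hbox fun u hu hd => ?_
  refine s4_frm hsat (te := fun i => i.isRight = true) (r₂ := 5 * K.rf / 8)
    (r₃ := 3 * K.rf / 4) (by linarith) (by linarith) hK.κ3 (by linarith) (by linarith) h.te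
    (X4 := K.X4) (rb := K.rc) (by linarith) (by linarith) hK.κ4 h34 (by linarith)
    (fun z hz hz4 => bf_mono (by linarith) (h.near4 z hz hz4))
    (fun z hz => h.hup z hz.1 hz.2) hD ?_
    (fun w hw => x0_hb h.toCx0 hK.sm hδ hs hN hw) ?_ (fun z hz => sub_cx h hz) hδ (by linarith)
    B.sub B.len hX hv hy hyv (H397.K.ob hδ B.ρ y hy hyb) hdisj
    (fun w hw hb => hL.im hδ hyq hw hb) hu hd
  · rintro (i | i) hi
    · show frm (δ n) (v1 (p n) (k n) C.Ld s (δ n)) '' (i : Set ℂ) ⊆ _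
      exact image_mono (subset_sUnion_of_mem i.2)
    · exact absurd rfl hi
  · intro z hz
    rcases hcl_cx h hz with h1 | ⟨-, u, h1, h2⟩
    · exact Or.inl h1
    · exact Or.inr ⟨u, h1, by linarith⟩

end

/-- The line, eventually. -/
theorem line_ev {Φ : (ℝ × ℝ) ≃ₜ (ℝ × ℝ)} {ψ : ℂ → ℂ} {δ : ℕ → ℝ} {N k : ℕ → ℕ}
    {p : ∀ n, ZMod (N n) → ℤ × ℤ} {S : ℕ → Finset (ℤ × ℤ)} {ψn : ℕ → ℂ → ℂ}
    (H : Set6 Φ ψ δ N k p S ψn) (hSt : QE.Stair 3 Φ δ N k p S) :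
    ∃ ρI : ℝ, 0 < ρI ∧ ∀ᶠ n in atTop, ∀ (C : Cst) (K : Kst) (s : ℝ), K.rf ≤ ρI →
      LineF C K δ k p S s n := by
  obtain ⟨r, hr, hst⟩ := hSt
  obtain ⟨ρ, hρ, hloc⟩ := H918.loc_of H.appr hr hst
  refine ⟨ρ / 4, by positivity, ?_⟩
  filter_upwards [hloc, H.appr.2.1.eventually (gt_mem_nhds (show (0 : ℝ) < ρ / 4 by positivity))]
    with n hM hd C K s hrf y hy w hw hb
  obtain ⟨M, hM⟩ := hM
  have hδ : 0 < δ n := (H.appr.1 n).1
  have hdl := dl_pos hδ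
  have hdδ := del_dl hδ
  obtain ⟨⟨a1, a2⟩, a3, a4⟩ := frm_sq hδ (v₁ := v1 (p n) (k n) C.Ld s (δ n)) hw
  obtain ⟨b1, b2⟩ := hb
  rw [abs_lt] at b1 b2
  obtain ⟨q, hq⟩ := H446.G.Nn_dvd s (δ n)
  have e1 : ((v1 (p n) (k n) C.Ld s (δ n)).1 : ℝ) =
      (ro (p n (k n))).1 - 5 * (H446.G.Nn s (δ n) : ℝ) / 2 := by
    have e0 : (v1 (p n) (k n) C.Ld s (δ n)).1 = (ro (p n (k n))).1 - 10 * (q : ℤ) := by
      unfold v1 vd
      have h4 : H446.G.Nn s (δ n) / 2 = 2 * q := by rw [hq]; omega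
      rw [h4, hq]
      simp only [Prod.fst_sub]
      push_cast
      ring
    rw [e0, hq]
    push_cast
    ring
  have e2 : (v1 (p n) (k n) C.Ld s (δ n)).2 = (ro (p n (k n))).2 := by
    unfold v1 vd
    simp
  rw [e1] at a1 a2
  rw [e2] at a3 a4
  have e3 : lb s (δ n) / 2 = H446.G.dl (δ n) * (5 * (H446.G.Nn s (δ n) : ℝ) / 2) := by
    unfold lb
    ring
  rw [e3] at b1
  -- the bound
  obtain ⟨Q, hQ⟩ : ∃ Q : ℝ, Q = ρ / δ n := ⟨_, rfl⟩
  have hQρ : Q * δ n = ρ := by rw [hQ]; field_simp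
  have hQ4 : 4 < Q := by
    rw [hQ, lt_div_iff₀ hδ]; linarith
  have hkey : ∀ a : ℝ, H446.G.dl (δ n) * a < K.rf → a < Q - 1 := by
    intro a ha
    by_contra hcon
    push Not at hcon
    have h1 : H446.G.dl (δ n) * (Q - 1) ≤ H446.G.dl (δ n) * a :=
      mul_le_mul_of_nonneg_left hcon hdl.le
    have h2 : δ n / 2 * (Q - 1) ≤ H446.G.dl (δ n) * (Q - 1) :=
      mul_le_mul_of_nonneg_right (by linarith) (by linarith)
    nlinarith
  have k1 := hkey ((y.1 : ℝ) - (ro (p n (k n))).1) (by nlinarith)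
  have k2 := hkey ((ro (p n (k n))).1 - 1 - (y.1 : ℝ)) (by nlinarith)
  have k3 := hkey ((y.2 : ℝ) - (ro (p n (k n))).2) (by nlinarith)
  have k4 := hkey ((ro (p n (k n))).2 - 1 - (y.2 : ℝ)) (by nlinarith)
  have f1 : |y.1 - (ro (p n (k n))).1| ≤ ⌊Q⌋ := by
    rw [Int.le_floor]
    push_cast
    rw [abs_le]
    constructor <;> linarith
  have f2 : |y.2 - (ro (p n (k n))).2| ≤ ⌊Q⌋ := by
    rw [Int.le_floor]
    push_cast
    rw [abs_le]
    constructor <;> linarith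
  rw [hQ] at f1 f2
  exact (hM.mem_Dq_iff (x := y.1) (y := y.2) (by omega) (by omega)).1 hy

/-- **`F_s4`.** -/
theorem f_s4 {Φ : (ℝ × ℝ) ≃ₜ (ℝ × ℝ)} {ψ : ℂ → ℂ} {δ : ℕ → ℝ} {N k : ℕ → ℕ}
    {p : ∀ n, ZMod (N n) → ℤ × ℤ} {S : ℕ → Finset (ℤ × ℤ)} {ψn : ℕ → ℂ → ℂ}
    (H : Set6 Φ ψ δ N k p S ψn) (hSt : QE.Stair 3 Φ δ N k p S) : F_s4 δ N k p S ψn := by
  intro T R hT hR
  obtain ⟨ρ₁, k1, g1⟩ := bas H T R hT hR
  obtain ⟨ρ₂, k2, g2⟩ := line_ev H hSt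
  refine ⟨min ρ₁ ρ₂, lt_min k1 k2, fun C K eT eR hK hr => ?_⟩
  obtain ⟨s₁, m1, g1⟩ := g1 C K eT eR hK (hr.trans (min_le_left _ _))
  refine ⟨s₁, m1, fun s hs hs' => ?_⟩
  have hδ0 : ∀ n, 0 < δ n := fun n => (H.appr.1 n).1
  filter_upwards [g1 s hs hs', g2, H653.St.hst_st H hK.T0 hK.R0.le one_pos,
    (H446.G.tendsto_Nn hδ0 H.appr.2.1 hs).eventually_ge_atTop 8] with n q1 q2 q3 q4 A j hB c O hC
    X hX v hv hvf hy
  obtain ⟨y, hy1, hy2, hy3, hy4⟩ := hy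
  obtain ⟨-, hD, -, -⟩ := q3 A j hB (v1 (p n) (k n) C.Ld s (δ n))
  exact s4_cx hC hK (q1 A j hB c O hC) q4 hD (q2 C K s (hr.trans (min_le_right _ _))) hX hv hvf hy1
    hy2 hy3 hy4

end Vale.Agent.P167.H638.SM
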