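import Vale.Agent.P167.SG.Cls5
import Vale.Agent.P167.H450.OutZ

/-!
# P167, general `q`, [SEAM-34] (s4): the continuum part

A boundary point `y₀` of the outer polygon which is seen from the base and which is joined in a small
set to a visible point outside of the polygon is far from the mark and on the pushed-in side.
-/

set_option autoImplicit false

namespace Vale.Agent.P167.H638.SM

open Set Metric Filter Topology
open Vale.Agent.P153.R2.R1 (Conf dinv JCurve)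
open Vale.Agent.P153.R2.L1 (HH)
open Vale.Agent.P164 (loewnerDomain)
open Vale.Agent.P167.SG Vale.Agent.P167.H450 Vale.Agent.P167.H450.Out
open Vale.Agent.P167.H756 (FD)

variable {ι : Type} {T R x3 xB τ κ x' xc ε η e ν X1 X3 : ℝ} {ψ : ℂ → ℂ} {W : ℝ → ℝ}
    {t σ xb rf cg δ r₀ ρ r' ℓ s₂ : ℝ} {Gt IN : Set ℂ} {x₁ tp : ℂ} {K : ι → Set ℂ}

/-- The obstacles in the disc. -/
abbrev kap (ψ : ℂ → ℂ) (W : ℝ → ℝ) (t : ℝ) (K : ι → Set ℂ) : ι → Set ℂ :=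
  fun i => dinv (FD ψ W t) '' K i

/-- The set `U` of the history. -/
abbrev UU (ψ : ℂ → ℂ) (W : ℝ → ℝ) (t σ ε τ xc : ℝ) (K : ι → Set ℂ) : Set ℂ :=
  Ug (FD ψ W t) σ ε (τ / 2) xc (kap ψ W t K)

/-- A visible boundary point: `y₀` has a position in the larger domain and is joined in a small set to
a point `v` outside of the polygon, the position of `v` is in the component of the base. -/
structure Vis (P : Set ℂ) (ψ : ℂ → ℂ) (W : ℝ → ℝ) (t σ ε η x' ℓ : ℝ) (K : ι → Set ℂ)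
    (y₀ v : ℂ) (C : Set ℂ) : Prop where
  pos : dinv (FD ψ W t) y₀ ∈ Rr σ (ε / 2) η x'
  conn : IsPreconnected C
  sub : C ⊆ ψ '' loewnerDomain W t
  small : ∀ x ∈ C, ∀ y ∈ C, dist x y ≤ 3 * ℓ
  y₀C : y₀ ∈ C
  vC : v ∈ C
  vP : v ∉ P
  vd : dinv (FD ψ W t) v ∈ Dd (kap ψ W t K)

section

variable (H : Sat T R x3 xB τ κ x' xc ε η e ν X1 X3 ψ W t σ xb rf cg δ r₀ ρ r' ℓ s₂ Gt IN x₁ tp K)
include H

/-- The type of the points of `U` near a visible boundary point. -/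
theorem ftype2 [Finite ι] {y₀ v u : ℂ} {C : Set ℂ}
    (V : Vis (Pm ℓ (UU ψ W t σ ε τ xc K)) ψ W t σ ε η x' ℓ K y₀ v C)
    (hu : u ∈ UU ψ W t σ ε τ xc K) (hd : dist u y₀ ≤ 12 * ℓ) :
    σ * (dinv (FD ψ W t) u).im ≤ τ := by
  have hℓ := H.hℓ
  have h40 := H.h40
  obtain ⟨C₁, c1, c2, c3, c4, c5⟩ := H.nc2' hu (V.sub V.y₀C) V.pos hd
  have hJ : Jd (ψ '' loewnerDomain W t) (2 * r₀) u v := by
    refine ⟨C₁ ∪ C, c1.union y₀ c5 V.y₀C V.conn, union_subset c2 V.sub, union_subset ?_ ?_,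
      Or.inl c4, Or.inr V.vC⟩
    · exact c3.trans (ball_subset_ball (by linarith))
    · intro x hx
      have h1 := mem_ball.1 (c3 c5)
      have h2 := V.small x hx y₀ V.y₀C
      rw [mem_ball]
      have := dist_triangle x y₀ u
      linarith
  have h2 := H.sit.close' (H.sit.sub hu) (v := v) (by rw [H.img]; exact hJ)
  have h3 := H.sit.ftype V.vP (by rw [H.img]; exact V.sub V.vC) V.vd h2
  have := H.cst.g1
  linarith

/-- The position of a point of `U` near a visible boundary point. -/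
theorem close2 {y₀ v u : ℂ} {C : Set ℂ} {P : Set ℂ}
    (V : Vis P ψ W t σ ε η x' ℓ K y₀ v C)
    (hu : u ∈ UU ψ W t σ ε τ xc K) (hd : dist u y₀ ≤ 12 * ℓ) :
    dist (dinv (FD ψ W t) u) (dinv (FD ψ W t) y₀) ≤ ν := by
  have hℓ := H.hℓ
  have h40 := H.h40
  have h1 := H.nc2' hu (V.sub V.y₀C) V.pos hd
  exact H.sit.close' (H.sit.sub hu) (v := y₀) (by
    rw [H.img]; exact jd_mono h1 (by linarith))

/-- The constants for the bad positions. -/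
structure CB (ε e ν τ δ' m s' m₂ τ₂ x₂ : ℝ) : Prop where
  hm2 : ε + 5 * e + ν ≤ m₂
  hm1 : m₂ ≤ 1
  hτ1 : τ₂ ≤ 1
  hτ : τ ≤ τ₂
  hδ : δ' + 4 * e + 2 * m ≤ τ₂
  hx0 : 0 ≤ x₂
  hx1 : x₂ ^ 2 < (1 - m₂) ^ 2 - τ₂ ^ 2
  hs : 2 * m₂ + 2 * τ₂ < s' - 4 * e - 2 * m

variable {s s' δ' m h₁ t₁ m₂ τ₂ x₂ : ℝ} {Bx Kb Xb Ke : Set ℂ} {b s₃ q e' : ℂ}

/-- **Visible boundary points have bad positions.** -/
theorem bad_of [Finite ι] (c : CB ε e ν τ δ' m s' m₂ τ₂ x₂) {y₀ v u : ℂ} {C : Set ℂ}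
    (V : Vis (Pm ℓ (UU ψ W t σ ε τ xc K)) ψ W t σ ε η x' ℓ K y₀ v C)
    (hu : u ∈ UU ψ W t σ ε τ xc K) {w : ℂ} (hw : w ∉ UU ψ W t σ ε τ xc K)
    (hwu : dist w u ≤ 3 * ℓ) (hd : dist u y₀ ≤ 12 * ℓ)
    (hx : (dinv (FD ψ W t) u).re ≤ x₂) : BadP σ s' δ' e m (dinv (FD ψ W t) u) :=
  H.sit.bad_pos hu hw hwu c.hm2 H.cst.hε.le c.hm1 c.hτ1 c.hδ c.hx0 hx c.hx1 c.hs
    ((ftype2 H V hu hd).trans c.hτ)

variable (M : Mk (FD ψ W t) σ ε (τ / 2) xc e ν (2 * r₀) ℓ (kap ψ W t K) s s' δ' m h₁ t₁ Bx Kb Xb b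
    s₃ q)
  (hK : IsMk (Pm ℓ (UU ψ W t σ ε τ xc K)) (UU ψ W t σ ε τ xc K) (FD ψ W t) σ ν s ℓ
    (h₁ + 2 * (2 * r₀) + 3 * ℓ) ((FD ψ W t) ((-1 + s : ℝ) : ℂ)) e' Ke)
include M hK

/-- **Visible boundary points are far from the mark.** -/
theorem clear2 [Finite ι] (c : CB ε e ν τ δ' m s' m₂ τ₂ x₂)
    (hxe : ∀ u ∈ UU ψ W t σ ε τ xc K, dist u e' ≤ 3 * ℓ → (dinv (FD ψ W t) u).re ≤ x₂)
    {y₀ v : ℂ} {C : Set ℂ} (V : Vis (Pm ℓ (UU ψ W t σ ε τ xc K)) ψ W t σ ε η x' ℓ K y₀ v C) :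
    9 * ℓ < dist y₀ e' := by
  by_contra hcon
  push Not at hcon
  have hℓ := H.hℓ
  obtain ⟨⟨G, hG, heG⟩, -⟩ := frontier_Pm hℓ hK.fr
  obtain ⟨u, hu, huU⟩ := hG
  have hue : dist u e' ≤ 3 * ℓ := dist_le_of_bk hu (sqr_subset_bk hℓ heG)
  have huy : dist u y₀ ≤ 12 * ℓ := by
    have := dist_triangle_right u y₀ e'
    linarith
  have heU : e' ∉ UU ψ W t σ ε τ xc K := fun h =>
    (disjoint_frontier_iff_isOpen.2 isOpen_Pm).le_bot ⟨hK.fr, sub_Pm hℓ h⟩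
  have h2 := bad_of H c V huU heU (by rw [dist_comm]; exact hue) huy (hxe u huU hue)
  exact M.near_not_bad hK huU (by linarith) h2

/-- **The side of a visible boundary point.** -/
theorem side_of [Finite ι] (c : CB ε e ν τ δ' m s' m₂ τ₂ x₂) (hs' : s' ≤ 1)
    {y₀ v : ℂ} {C : Set ℂ} (V : Vis (Pm ℓ (UU ψ W t σ ε τ xc K)) ψ W t σ ε η x' ℓ K y₀ v C)
    (hx : (dinv (FD ψ W t) y₀).re ≤ x₂ - ν) (hfar : ∀ x ∈ Bx, 6 * ℓ < dist x y₀)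
    {Φ : ℝ → ℂ} {L : ℝ} (hΦ : JCurve Φ L)
    (hfr : frontier (Pm ℓ (UU ψ W t σ ε τ xc K)) = range Φ) {tb te t2 ty : ℝ} (hb : Φ tb = b)
    (he : Φ te = e') (h2 : Φ t2 = s₃) (ite : te ∈ Ioo tb (tb + L)) (it2 : t2 ∈ Ioo tb (tb + L))
    (ity : ty ∈ Ioo tb (tb + L)) (hy : Φ ty = y₀) : ty ≠ te ∧ (ty < te ↔ t2 < te) := by
  have hℓ := H.hℓ
  have hyf : y₀ ∈ frontier (Pm ℓ (UU ψ W t σ ε τ xc K)) := by rw [hfr]; exact ⟨ty, hy⟩
  obtain ⟨⟨G, hG, hyG⟩, -⟩ := frontier_Pm hℓ hyf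
  obtain ⟨u, hu, huU⟩ := hG
  have huy : dist u y₀ ≤ 3 * ℓ := dist_le_of_bk hu (sqr_subset_bk hℓ hyG)
  have hyU : y₀ ∉ UU ψ W t σ ε τ xc K := fun h =>
    (disjoint_frontier_iff_isOpen.2 isOpen_Pm).le_bot ⟨hyf, sub_Pm hℓ h⟩
  have hre : (dinv (FD ψ W t) u).re ≤ x₂ := by
    have h3 := close2 H V huU (by linarith)
    have h4 : |(dinv (FD ψ W t) u).re - (dinv (FD ψ W t) y₀).re| ≤
        dist (dinv (FD ψ W t) u) (dinv (FD ψ W t) y₀) := by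
      rw [dist_eq_norm, ← Complex.sub_re]
      exact Complex.abs_re_le_norm _
    have h5 := le_abs_self ((dinv (FD ψ W t) u).re - (dinv (FD ψ W t) y₀).re)
    linarith
  have hbad := bad_of H c V huU hyU (by rw [dist_comm]; exact huy) (by linarith) hre
  subst hy
  exact M.ord hs' hK hΦ hfr hb he h2 ite it2 ity hfar ⟨u, hu, huU⟩ hyG hu huU hbad

end

end Vale.Agent.P167.H638.SM
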