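import Vale.Agent.P167.H632.G.ShF

/-!
# P167, general `q`, [SEAM-34] (s4): the flat sides near the target

`ShD.line_r`, `ShD.line_l`: the curve of the polygon near the target.
`exists_t2`: the parameter of a point of the line near the target.
-/

set_option autoImplicit false

namespace Vale.Agent.P167.H638.SM

open Metric Set
open Vale.Agent.P153.R2.R1 (JCurve)
open Vale.Agent.P167.E6 (IsPolygon Encloses dir face pt region D6 PF6 PV6 PV6_re PV6_im)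
open Vale.Agent.P167.H825 (pdir)
open Vale.Agent.P167.QT (Sh4)
open Vale.Agent.P167.H632G

theorem fc0 (v : ℤ × ℤ) : face v 0 = v := by
  obtain ⟨x, y⟩ := v
  show ((x, y) : ℤ × ℤ) + (0, 0) = _
  simp

theorem fc3 (v : ℤ × ℤ) : face v (0 - 1) = (v.1, v.2 - 1) := by
  obtain ⟨x, y⟩ := v
  show ((x, y) : ℤ × ℤ) + (0, -1) = _
  refine Prod.ext ?_ ?_ <;> (simp; try ring)

section

variable {n : ℕ} {p : ZMod n → ℤ × ℤ} {S : Finset (ℤ × ℤ)}

/-- A flat side. -/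
theorem step_flat (hS : Encloses p S) {a : ℤ} (h : (a, (0 : ℤ)) ∈ S ∧ (a, (-1 : ℤ)) ∉ S) :
    ∃ i, p i = (a, 0) ∧ p (i + 1) = (a + 1, 0) := by
  have h1 := (hS (a, 0) 0).2 ⟨by rw [fc0]; exact h.1, by rw [fc3]; simpa using h.2⟩
  obtain ⟨i, h2, h3⟩ := h1
  refine ⟨i, h2, ?_⟩
  rw [h3]
  simp [dir]

theorem walk_r (hp : IsPolygon p) (hS : Encloses p S) (p0 : p 0 = (0, 0)) {A : ℕ}
    (hA : ∀ a : ℕ, a < A → ((a : ℤ), (0 : ℤ)) ∈ S ∧ ((a : ℤ), (-1 : ℤ)) ∉ S) :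
    ∀ a : ℕ, a ≤ A → p ((a : ℕ) : ZMod n) = ((a : ℤ), 0) := by
  intro a
  induction a with
  | zero => intro _; simpa using p0
  | succ a ih =>
    intro ha
    have h1 := ih (by omega)
    obtain ⟨i, h2, h3⟩ := step_flat hS (hA a (by omega))
    have h4 : i = ((a : ℕ) : ZMod n) := hp.2.1 (by rw [h2, h1])
    rw [h4] at h3
    push_cast
    exact h3

theorem walk_l (hp : IsPolygon p) (hS : Encloses p S) (p0 : p 0 = (0, 0)) {A : ℕ}
    (hA : ∀ a : ℕ, a < A → (-(a : ℤ) - 1, (0 : ℤ)) ∈ S ∧ (-(a : ℤ) - 1, (-1 : ℤ)) ∉ S) :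
    ∀ a : ℕ, a ≤ A → p (-((a : ℕ) : ZMod n)) = (-(a : ℤ), 0) := by
  intro a
  induction a with
  | zero => intro _; simpa using p0
  | succ a ih =>
    intro ha
    have h1 := ih (by omega)
    obtain ⟨i, h2, h3⟩ := step_flat hS (hA a (by omega))
    have h4 : i + 1 = -((a : ℕ) : ZMod n) := hp.2.1 (by rw [h3, h1]; simp)
    have h5 : i = -((a + 1 : ℕ) : ZMod n) := by
      push_cast
      rw [neg_add, ← h4]
      ring
    rw [← h5, h2]
    push_cast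
    simp
    ring

theorem lt_r (hp : IsPolygon p) (hS : Encloses p S) (p0 : p 0 = (0, 0)) {A : ℕ}
    (hA : ∀ a : ℕ, a < A → ((a : ℤ), (0 : ℤ)) ∈ S ∧ ((a : ℤ), (-1 : ℤ)) ∉ S) : A < n := by
  by_contra hcon
  have h1 := walk_r hp hS p0 hA n (by omega)
  rw [ZMod.natCast_self, p0] at h1
  have h2 := congrArg Prod.fst h1
  simp only at h2
  have := hp.1
  omega

theorem lt_l (hp : IsPolygon p) (hS : Encloses p S) (p0 : p 0 = (0, 0)) {A : ℕ}
    (hA : ∀ a : ℕ, a < A → (-(a : ℤ) - 1, (0 : ℤ)) ∈ S ∧ (-(a : ℤ) - 1, (-1 : ℤ)) ∉ S) : A < n := by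
  by_contra hcon
  have h1 := walk_l hp hS p0 hA n (by omega)
  rw [ZMod.natCast_self, neg_zero, p0] at h1
  have h2 := congrArg Prod.fst h1
  simp only at h2
  have := hp.1
  omega

theorem pdir_of (hp : IsPolygon p) {i : ℕ} (h : p ((i + 1 : ℕ) : ZMod n) = p (i : ZMod n) + (1, 0)) :
    dir (pdir p i) = (1, 0) := by
  have h1 := Enl.pdir_step hp i
  push_cast at h
  rw [h] at h1
  exact (add_left_cancel h1).symm

/-- The curve to the right of the target. -/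
theorem PF_r (hp : IsPolygon p) (hS : Encloses p S) (p0 : p 0 = (0, 0)) {A : ℕ}
    (hA : ∀ a : ℕ, a < A → ((a : ℤ), (0 : ℤ)) ∈ S ∧ ((a : ℤ), (-1 : ℤ)) ∉ S) (ℓ : ℝ) {t : ℝ}
    (h0 : 0 ≤ t) (h1 : t < A) : PF6 p ℓ t = ((ℓ * t : ℝ) : ℂ) := by
  have hf := Nat.floor_le h0
  have hf2 := Nat.lt_floor_add_one t
  set i := ⌊t⌋₊
  have hi : i < A := by
    have : (i : ℝ) < A := lt_of_le_of_lt hf h1
    exact_mod_cast this
  have e1 := walk_r hp hS p0 hA i (by omega)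
  have e2 := walk_r hp hS p0 hA (i + 1) (by omega)
  have e3 : dir (pdir p i) = (1, 0) := pdir_of hp (by rw [e2, e1]; simp)
  rw [PF_side hp hf hf2.le, e3, e1]
  apply Complex.ext
  · simp
  · simp

/-- The curve to the left of the target. -/
theorem PF_l (hp : IsPolygon p) (hS : Encloses p S) (p0 : p 0 = (0, 0)) {A : ℕ}
    (hA : ∀ a : ℕ, a < A → (-(a : ℤ) - 1, (0 : ℤ)) ∈ S ∧ (-(a : ℤ) - 1, (-1 : ℤ)) ∉ S) (ℓ : ℝ)
    {t : ℝ} (h0 : (n : ℝ) - A ≤ t) (h1 : t < n) : PF6 p ℓ t = ((ℓ * (t - n) : ℝ) : ℂ) := by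
  have hAn := lt_l hp hS p0 hA
  have hAn' : (A : ℝ) < n := by exact_mod_cast hAn
  have ht0 : 0 ≤ t := by linarith
  have hf := Nat.floor_le ht0
  have hf2 := Nat.lt_floor_add_one t
  have hle : n - A ≤ ⌊t⌋₊ := by
    apply Nat.le_floor
    rw [Nat.cast_sub hAn.le]
    exact h0
  set i := ⌊t⌋₊
  have hi : i < n := by
    have : (i : ℝ) < n := lt_of_le_of_lt hf h1
    exact_mod_cast this
  obtain ⟨a, ha⟩ : ∃ a : ℕ, i + (a + 1) = n := ⟨n - i - 1, by omega⟩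
  have ci : ((i : ℕ) : ZMod n) = -((a + 1 : ℕ) : ZMod n) := by
    have : ((i + (a + 1) : ℕ) : ZMod n) = 0 := by rw [ha]; exact ZMod.natCast_self n
    push_cast at this ⊢
    exact eq_neg_of_add_eq_zero_left this
  have ci1 : ((i + 1 : ℕ) : ZMod n) = -((a : ℕ) : ZMod n) := by
    push_cast at ci ⊢
    rw [ci]
    ring
  have e1 : p ((i : ℕ) : ZMod n) = (-((a + 1 : ℕ) : ℤ), 0) := by
    rw [ci]
    exact walk_l hp hS p0 hA (a + 1) (by omega)
  have e2 : p ((i + 1 : ℕ) : ZMod n) = (-((a : ℕ) : ℤ), 0) := by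
    rw [ci1]
    exact walk_l hp hS p0 hA a (by omega)
  have e3 : dir (pdir p i) = (1, 0) := pdir_of hp (by rw [e2, e1]; simp)
  rw [PF_side hp hf hf2.le, e3, e1]
  have ha' : (n : ℝ) = i + (a + 1) := by exact_mod_cast ha.symm
  apply Complex.ext
  · simp only [Complex.ofReal_re]
    push_cast
    rw [ha']
    ring
  · simp

end

variable {n : ℕ} {p : ZMod n → ℤ × ℤ} {S Bm : Finset (ℤ × ℤ)} {i x Kd : ℕ} {P : Sh4}
  {ℓ te : ℝ} {PM : Set ℂ} {e : ℂ}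

/-- The target is the middle of the side `0`. -/
theorem tb_eq (h : ShD ℓ PM e te Kd p S Bm i x P) : PF6 p ℓ (1 / 2) = ((ℓ / 2 : ℝ) : ℂ) := by
  have e3 : dir (pdir p 0) = (1, 0) := by
    have := pdir_of h.poly (i := 0) (by
      simp only [zero_add, Nat.cast_one, Nat.cast_zero, h.p0, h.p1]
      simp)
    simpa using this
  have := PF_side (ℓ := ℓ) h.poly (i := 0) (t := 1 / 2) (by norm_num) (by norm_num)
  rw [this]
  simp only [Nat.cast_zero, e3, h.p0]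
  apply Complex.ext
  · simp only [Complex.ofReal_re]
    push_cast
    ring
  · simp

/-- The faces of the flat box. -/
theorem face_flat (h : ShD ℓ PM e te Kd p S Bm i x P) {r : ℝ}
    (hfl : ∀ z : ℂ, |z.re - ℓ / 2| < r → |z.im| < r → (z ∈ PM ↔ 0 < z.im)) {a : ℤ}
    (ha : ℓ * |(a : ℝ)| < r) (hr : ℓ / 2 < r) :
    (a, (0 : ℤ)) ∈ S ∧ (a, (-1 : ℤ)) ∉ S := by
  have hℓ := h.hℓ
  have e1 : ∀ b : ℤ, |(⟨ℓ * ((a : ℝ) + 1 / 2), ℓ * ((b : ℝ) + 1 / 2)⟩ : ℂ).re - ℓ / 2| < r := by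
    intro b
    show |ℓ * ((a : ℝ) + 1 / 2) - ℓ / 2| < r
    rw [show ℓ * ((a : ℝ) + 1 / 2) - ℓ / 2 = ℓ * a by ring, abs_mul, abs_of_pos hℓ]
    exact ha
  constructor
  · rw [← face_iff hℓ (a, (0 : ℤ)), ← h.pm, hfl _ (e1 0)]
    · show 0 < ℓ * (((0 : ℤ) : ℝ) + 1 / 2)
      push_cast
      linarith
    · show |ℓ * (((0 : ℤ) : ℝ) + 1 / 2)| < r
      push_cast
      rw [abs_of_pos (by linarith)]
      linarith
  · rw [← face_iff hℓ (a, (-1 : ℤ)), ← h.pm, hfl _ (e1 (-1))]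
    · show ¬ 0 < ℓ * (((-1 : ℤ) : ℝ) + 1 / 2)
      push_cast
      linarith
    · show |ℓ * (((-1 : ℤ) : ℝ) + 1 / 2)| < r
      push_cast
      rw [abs_of_neg (by linarith)]
      linarith

/-- **The parameter of a point of the line to the right of the target.** -/
theorem exists_t2_r (h : ShD ℓ PM e te Kd p S Bm i x P) {r : ℝ}
    (hfl : ∀ z : ℂ, |z.re - ℓ / 2| < r → |z.im| < r → (z ∈ PM ↔ 0 < z.im)) {x₂ : ℝ}
    (h1 : ℓ / 2 < x₂) (h2 : x₂ + 2 * ℓ < r)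
    (he : ∀ y : ℝ, ℓ / 2 ≤ y → y ≤ x₂ → (y : ℂ) ≠ e) :
    ∃ t2 ∈ Ioo (1 / 2 : ℝ) (1 / 2 + n), PF6 p ℓ t2 = (x₂ : ℂ) ∧ t2 < te := by
  have hℓ := h.hℓ
  set A : ℕ := ⌊x₂ / ℓ⌋₊ + 1 with hA
  have hx0 : 0 < x₂ := by linarith
  have hA1 : x₂ / ℓ < A := by rw [hA]; push_cast; exact Nat.lt_floor_add_one _
  have hA2 : (A : ℝ) ≤ x₂ / ℓ + 1 := by
    rw [hA]; push_cast
    have := Nat.floor_le (show 0 ≤ x₂ / ℓ by positivity)
    linarith
  have hA3 : ℓ * A ≤ x₂ + ℓ := by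
    have := mul_le_mul_of_nonneg_left hA2 hℓ.le
    rw [mul_add, mul_div_cancel₀ _ hℓ.ne', mul_one] at this
    exact this
  have hfl' : ∀ a : ℕ, a < A → ((a : ℤ), (0 : ℤ)) ∈ S ∧ ((a : ℤ), (-1 : ℤ)) ∉ S := by
    intro a ha
    refine face_flat h hfl ?_ (by linarith)
    have h3 : (a : ℝ) ≤ A := by exact_mod_cast ha.le
    have h4 := mul_le_mul_of_nonneg_left h3 hℓ.le
    push_cast
    rw [abs_of_nonneg (by positivity : (0 : ℝ) ≤ a)]
    linarith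
  have hAn := lt_r h.poly h.encl h.p0 hfl'
  have hAn' : (A : ℝ) + 1 ≤ n := by exact_mod_cast hAn
  have key : ∀ t : ℝ, 0 ≤ t → t ≤ x₂ / ℓ → PF6 p ℓ t = ((ℓ * t : ℝ) : ℂ) := fun t h3 h4 =>
    PF_r h.poly h.encl h.p0 hfl' ℓ h3 (by linarith)
  have ht2 : 1 / 2 < x₂ / ℓ := by
    rw [lt_div_iff₀ hℓ]; linarith
  refine ⟨x₂ / ℓ, ⟨ht2, by linarith⟩, ?_, ?_⟩
  · rw [key _ (by linarith) le_rfl]
    congr 1
    field_simp
  · by_contra hcon
    push Not at hcon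
    have h3 : (1 : ℝ) ≤ te := by
      have := h.te1
      have h4 : (1 : ℝ) ≤ i := by exact_mod_cast h.i1
      linarith
    have h5 := key te (by linarith) hcon
    rw [h.te_eq] at h5
    refine he (ℓ * te) ?_ ?_ h5.symm
    · nlinarith
    · have := mul_le_mul_of_nonneg_left hcon hℓ.le
      rwa [mul_div_cancel₀ _ hℓ.ne'] at this

/-- **The parameter of a point of the line to the left of the target.** -/
theorem exists_t2_l (h : ShD ℓ PM e te Kd p S Bm i x P) {r : ℝ}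
    (hfl : ∀ z : ℂ, |z.re - ℓ / 2| < r → |z.im| < r → (z ∈ PM ↔ 0 < z.im)) {x₂ : ℝ}
    (h1 : x₂ < ℓ / 2) (h2 : -x₂ + 3 * ℓ < r)
    (he : ∀ y : ℝ, x₂ ≤ y → y ≤ ℓ / 2 → (y : ℂ) ≠ e) :
    ∃ t2 ∈ Ioo (1 / 2 : ℝ) (1 / 2 + n), PF6 p ℓ t2 = (x₂ : ℂ) ∧ te < t2 := by
  have hℓ := h.hℓ
  have hnpos : (0 : ℝ) < n := by exact_mod_cast h.n_pos
  set y₂ : ℝ := max (-x₂) 0 with hy
  have hy0 : 0 ≤ y₂ := le_max_right _ _
  have hyx : -x₂ ≤ y₂ := le_max_left _ _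
  have hyr : y₂ + 3 * ℓ / 2 < r := by
    rcases max_cases (-x₂) 0 with ⟨h3, h4⟩ | ⟨h3, h4⟩
    · rw [hy, h3]; linarith
    · rw [hy, h3]; linarith
  set A : ℕ := ⌊y₂ / ℓ⌋₊ + 1 with hA
  have hA1 : y₂ / ℓ < A := by rw [hA]; push_cast; exact Nat.lt_floor_add_one _
  have hA2 : (A : ℝ) ≤ y₂ / ℓ + 1 := by
    rw [hA]; push_cast
    have := Nat.floor_le (show 0 ≤ y₂ / ℓ by positivity)
    linarith
  have hA3 : ℓ * A ≤ y₂ + ℓ := by
    have := mul_le_mul_of_nonneg_left hA2 hℓ.le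
    rw [mul_add, mul_div_cancel₀ _ hℓ.ne', mul_one] at this
    exact this
  have hfl' : ∀ a : ℕ, a < A → (-(a : ℤ) - 1, (0 : ℤ)) ∈ S ∧ (-(a : ℤ) - 1, (-1 : ℤ)) ∉ S := by
    intro a ha
    refine face_flat h hfl ?_ (by linarith)
    have h3 : (a : ℝ) + 1 ≤ A := by exact_mod_cast ha
    have h4 := mul_le_mul_of_nonneg_left h3 hℓ.le
    push_cast
    rw [abs_of_nonpos (by linarith [(by positivity : (0 : ℝ) ≤ a)])]
    linarith
  have hAn := lt_l h.poly h.encl h.p0 hfl'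
  have hAn' : (A : ℝ) + 1 ≤ n := by exact_mod_cast hAn
  -- the curve between `n - A` and `n + 1 / 2`
  have key : ∀ t : ℝ, (n : ℝ) - A ≤ t → t ≤ n + 1 / 2 → PF6 p ℓ t = ((ℓ * (t - n) : ℝ) : ℂ) := by
    intro t h3 h4
    rcases lt_or_ge t n with h5 | h5
    · exact PF_l h.poly h.encl h.p0 hfl' ℓ h3 h5
    · have e1 : PF6 p ℓ t = PF6 p ℓ (t - n) := by
        have := E6.PF6_per (p := p) (δ := ℓ) (t - n)
        rw [sub_add_cancel] at this
        exact this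
      have h0 : ∀ a : ℕ, a < 1 → ((a : ℤ), (0 : ℤ)) ∈ S ∧ ((a : ℤ), (-1 : ℤ)) ∉ S := by
        intro a ha
        refine face_flat h hfl ?_ (by linarith)
        have : a = 0 := by omega
        subst this
        simp
        linarith
      rw [e1]
      exact PF_r h.poly h.encl h.p0 h0 ℓ (by linarith) (by push_cast; linarith)
  have hx2 : (n : ℝ) - A ≤ n + x₂ / ℓ := by
    have h3 : -(y₂ / ℓ) ≤ x₂ / ℓ := by
      rw [← neg_div]
      exact div_le_div_of_nonneg_right (by linarith) hℓ.le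
    linarith
  have ht2 : x₂ / ℓ < 1 / 2 := by
    rw [div_lt_iff₀ hℓ]; linarith
  have hlt : (1 : ℝ) ≤ n + x₂ / ℓ := by linarith
  refine ⟨n + x₂ / ℓ, ⟨by linarith, by linarith⟩, ?_, ?_⟩
  · rw [key _ hx2 (by linarith)]
    congr 1
    field_simp
    ring
  · by_contra hcon
    push Not at hcon
    have h3 : te ≤ n := by
      have := h.te2
      have h4 : (i : ℝ) + 1 ≤ n := by exact_mod_cast h.i2
      linarith
    have h5 := key te (by linarith) (by linarith)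
    rw [h.te_eq] at h5
    refine he (ℓ * (te - n)) ?_ ?_ h5.symm
    · have := mul_le_mul_of_nonneg_left (show x₂ / ℓ ≤ te - n by linarith) hℓ.le
      rwa [mul_div_cancel₀ _ hℓ.ne'] at this
    · nlinarith

end Vale.Agent.P167.H638.SM
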