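import Vale.Agent.P167.H632.G.Shp3
import Vale.Agent.P167.E6.Poly6

/-!
# P167, general `q`, [SEAM-34] (s4): from the parameter on the coarse polygon to the index of the shape

`ShR`: the relation of the shape `P` and the coarse polygon `p` (from `S_shape`).
`pos_idx`: a boundary site of the shape which is far from the side of the mark and from the target.
-/

set_option autoImplicit false

namespace Vale.Agent.P167.H638.SM

open Set Metric
open Vale.Agent.P167.E6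
open Vale.Agent.P167.Enl (PN PN_lin PN_succ pdir_step)
open Vale.Agent.P167.H825 (pdir)
open Vale.Agent.P167.QT (Sh4)
open Vale.Agent.P167.H450.ShpL (Gf)
open Vale.Agent.P153.R2.R1 (pl pl_eq)

/-- The relation of the shape and the coarse polygon. -/
structure ShR {n : ℕ} (p : ZMod n → ℤ × ℤ) (i Kd x : ℕ) (P : Sh4) : Prop where
  m_eq : P.m = 5 * n + x
  lo : ∀ j : ℕ, j ≤ 5 * i → P.q j = PN p 5 (j + 2) + ((Kd : ℤ) - 2, 0)
  hi : ∀ j : ℕ, 5 * i + 1 ≤ j → j ≤ 5 * n → P.q (j + x : ℕ) = PN p 5 (j + 2) + ((Kd : ℤ) - 2, 0)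
  mid : ∀ j : ℕ, 5 * i ≤ j → j ≤ 5 * i + 1 + x →
    5 * (Gf p i).1 + ((Kd : ℤ) - 2) ≤ (P.q j).1 ∧
    (P.q j).1 ≤ 5 * (Gf p i).1 + 5 + ((Kd : ℤ) - 2) ∧
    5 * (Gf p i).2 ≤ (P.q j).2 ∧ (P.q j).2 ≤ 5 * (Gf p i).2 + 5

section

variable {n : ℕ} {p : ZMod n → ℤ × ℤ} {i Kd x : ℕ} {P : Sh4} {N : ℕ}

theorem pn_gen (hp : IsPolygon p) (hq : IsPolygon P.q) (hN : 0 < N) {j j₀ r : ℕ} {c : ℤ × ℤ}
    (h0 : P.q (j : ℕ) = PN p 5 (j₀ + 2) + c) (h1 : P.q (j + 1 : ℕ) = PN p 5 (j₀ + 3) + c)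
    (hr : r < N) : PN P.q N (j * N + r) = PN p (5 * N) ((j₀ + 2) * N + r) + (N : ℤ) • c := by
  have e1 : dir (pdir P.q j) = dir (pdir p ((j₀ + 2) / 5)) := by
    have h2 := pdir_step hq j
    have h3 := PN_succ (n := 5) (by norm_num) hp (j₀ + 2)
    have h4 : P.q ((j : ZMod P.m) + 1) = P.q ((j + 1 : ℕ) : ZMod P.m) := by push_cast; rfl
    rw [h4, h1, h0] at h2
    have h5 : j₀ + 3 = j₀ + 2 + 1 := rfl
    rw [h5, h3] at h2
    have h6 : PN p 5 (j₀ + 2) + c + dir (pdir p ((j₀ + 2) / 5)) =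
        PN p 5 (j₀ + 2) + c + dir (pdir P.q j) := by rw [← h2]; abel
    exact (add_left_cancel h6).symm
  have hb := Nat.mod_lt (j₀ + 2) (show 0 < 5 by norm_num)
  have hab := Nat.div_add_mod' (j₀ + 2) 5
  set a := (j₀ + 2) / 5
  set b := (j₀ + 2) % 5
  have e2 : (j₀ + 2) * N + r = a * (5 * N) + (b * N + r) := by
    rw [← hab]; ring
  have e3 : b * N + r < 5 * N := by nlinarith
  rw [PN_lin hN hr, e2, PN_lin (by positivity) e3, h0, e1, ← hab, PN_lin (by norm_num) hb]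
  push_cast
  rw [smul_add, smul_add, smul_smul, smul_smul, add_smul, mul_comm (N : ℤ) 5, mul_comm (N : ℤ) b]
  abel

theorem ShR.pn_lo (R : ShR p i Kd x P) (hp : IsPolygon p) (hq : IsPolygon P.q) (hN : 0 < N) {M : ℕ}
    (hM : M < 5 * i * N) :
    PN P.q N M = PN p (5 * N) (M + 2 * N) + (N : ℤ) • ((Kd : ℤ) - 2, (0 : ℤ)) := by
  have h1 := Nat.div_add_mod' M N
  have h2 := Nat.mod_lt M hN
  have h3 : M / N < 5 * i := (Nat.div_lt_iff_lt_mul hN).2 hM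
  have h4 := pn_gen (j := M / N) (j₀ := M / N) (r := M % N) hp hq hN (R.lo _ (by omega))
    (R.lo _ (by omega)) h2
  rw [h1] at h4
  rw [h4]
  congr 2
  rw [add_mul, add_right_comm, h1]

theorem ShR.pn_hi (R : ShR p i Kd x P) (hp : IsPolygon p) (hq : IsPolygon P.q) (hN : 0 < N) {M : ℕ}
    (hM : (5 * i + 1 + x) * N ≤ M) (hM2 : M < P.m * N) :
    PN P.q N M = PN p (5 * N) (M - x * N + 2 * N) + (N : ℤ) • ((Kd : ℤ) - 2, (0 : ℤ)) := by
  have h1 := Nat.div_add_mod' M N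
  have h2 := Nat.mod_lt M hN
  have h3 : 5 * i + 1 + x ≤ M / N := (Nat.le_div_iff_mul_le hN).2 hM
  have h3' : M / N < P.m := (Nat.div_lt_iff_lt_mul hN).2 hM2
  rw [R.m_eq] at h3'
  obtain ⟨j, hj⟩ : ∃ j, M / N = j + x := ⟨M / N - x, by omega⟩
  have h5 : P.q ((M / N : ℕ) : ZMod P.m) = PN p 5 (j + 2) + ((Kd : ℤ) - 2, 0) := by
    rw [hj]; exact R.hi j (by omega) (by omega)
  have h6 : P.q ((M / N + 1 : ℕ) : ZMod P.m) = PN p 5 (j + 3) + ((Kd : ℤ) - 2, 0) := by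
    have := R.hi (j + 1) (by omega) (by omega)
    rw [hj, show j + x + 1 = j + 1 + x by ring]
    exact this
  have h4 := pn_gen (j := M / N) (j₀ := j) (r := M % N) hp hq hN h5 h6 h2
  rw [h1] at h4
  rw [h4]
  congr 2
  have e : M = (j + x) * N + M % N := by rw [← hj, h1]
  have e2 : M - x * N = j * N + M % N := by
    rw [Nat.sub_eq_iff_eq_add (by rw [e]; nlinarith [Nat.zero_le (j * N), Nat.zero_le (M % N)])]
    rw [e]
    have : (j * N + x * N + M % N) % N = M % N := by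
      rw [← add_mul, mul_comm, Nat.mul_add_mod, Nat.mod_mod]
    rw [add_mul]
    rw [this]
    ring
  rw [e2]
  ring

theorem ShR.pn_mid (R : ShR p i Kd x P) (hq : IsPolygon P.q) (hN : 0 < N) {M : ℕ}
    (hM : 5 * i * N ≤ M) (hM2 : M < (5 * i + 1 + x) * N) :
    (N : ℤ) * (5 * (Gf p i).1 + ((Kd : ℤ) - 2)) ≤ (PN P.q N M).1 ∧
    (PN P.q N M).1 ≤ N * (5 * (Gf p i).1 + 5 + ((Kd : ℤ) - 2)) ∧
    (N : ℤ) * (5 * (Gf p i).2) ≤ (PN P.q N M).2 ∧ (PN P.q N M).2 ≤ N * (5 * (Gf p i).2 + 5) := by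
  have h1 := Nat.div_add_mod' M N
  have h2 := Nat.mod_lt M hN
  have h3 : 5 * i ≤ M / N := (Nat.le_div_iff_mul_le hN).2 hM
  have h3' : M / N < 5 * i + 1 + x := (Nat.div_lt_iff_lt_mul hN).2 hM2
  have e1 : dir (pdir P.q (M / N)) = P.q (M / N + 1 : ℕ) - P.q (M / N : ℕ) := by
    have := pdir_step hq (M / N)
    have h4 : P.q (((M / N : ℕ) : ZMod P.m) + 1) = P.q ((M / N + 1 : ℕ) : ZMod P.m) := by
      push_cast; rfl
    rw [h4] at this
    rw [this, add_sub_cancel_left]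
  obtain ⟨a1, a2, a3, a4⟩ := R.mid (M / N) h3 (by omega)
  obtain ⟨b1, b2, b3, b4⟩ := R.mid (M / N + 1) (by omega) (by omega)
  have e2 : PN P.q N M = (N : ℤ) • P.q (M / N : ℕ) +
      ((M % N : ℕ) : ℤ) • (P.q (M / N + 1 : ℕ) - P.q (M / N : ℕ)) := by
    rw [← e1]; rfl
  rw [e2]
  set u := P.q (M / N : ℕ)
  set w := P.q (M / N + 1 : ℕ)
  have c1 : (0 : ℤ) ≤ ((M % N : ℕ) : ℤ) := Int.natCast_nonneg _
  have c2 : ((M % N : ℕ) : ℤ) ≤ N := by exact_mod_cast h2.le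
  set r : ℤ := ((M % N : ℕ) : ℤ)
  simp only [Prod.fst_add, Prod.snd_add, Prod.smul_fst, Prod.smul_snd, Prod.fst_sub, Prod.snd_sub,
    smul_eq_mul]
  refine ⟨?_, ?_, ?_, ?_⟩
  · nlinarith [mul_le_mul_of_nonneg_left b1 c1, mul_le_mul_of_nonneg_left a1 (sub_nonneg.2 c2)]
  · nlinarith [mul_le_mul_of_nonneg_left b2 c1, mul_le_mul_of_nonneg_left a2 (sub_nonneg.2 c2)]
  · nlinarith [mul_le_mul_of_nonneg_left b3 c1, mul_le_mul_of_nonneg_left a3 (sub_nonneg.2 c2)]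
  · nlinarith [mul_le_mul_of_nonneg_left b4 c1, mul_le_mul_of_nonneg_left a4 (sub_nonneg.2 c2)]

end

end Vale.Agent.P167.H638.SM
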